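import Vale.Agent.P040.Rect.Var
import Vale.Agent.P040.All.Therm

/-!
# Spherical geodesic drawings of `K_{m,n}`: definitions for the pair inequality

Points of the sphere are (nonzero) vectors of `ℝ³ = ℝ × ℝ × ℝ`; only signs of determinants matter.
See `notes/P040_sphere.md`.
-/

namespace Vale.Agent.P040.Sph56

open Finset Vale.Agent.P040.All Vale.Agent.P040.Rect

/-- vectors of `ℝ³` -/
abbrev V3 : Type := ℝ × ℝ × ℝ

/-- scalar product -/
def dot (a b : V3) : ℝ := a.1 * b.1 + a.2.1 * b.2.1 + a.2.2 * b.2.2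

/-- determinant of three vectors -/
def det3 (a b c : V3) : ℝ :=
  a.1 * (b.2.1 * c.2.2 - b.2.2 * c.2.1) - a.2.1 * (b.1 * c.2.2 - b.2.2 * c.1)
    + a.2.2 * (b.1 * c.2.1 - b.2.1 * c.1)

/-- vector product -/
def crs (a b : V3) : V3 :=
  (a.2.1 * b.2.2 - a.2.2 * b.2.1, a.2.2 * b.1 - a.1 * b.2.2, a.1 * b.2.1 - a.2.1 * b.1)

/-- A labelling `r 0, …, r (2k)` of the reds with great circles `(nn i)^⊥` through `r i`: all smaller
labels (`i ≤ k`), resp. all larger labels (`i > k`), lie strictly on the positive side, which contains at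
most `k` reds. -/
structure Lab (k : ℕ) (r nn : ℕ → V3) : Prop where
  perp : ∀ i < 2 * k + 1, dot (nn i) (r i) = 0
  ne : ∀ i < 2 * k + 1, ∀ j < 2 * k + 1, i ≠ j → dot (nn i) (r j) ≠ 0
  small : ∀ i ≤ k, ∀ j < i, 0 < dot (nn i) (r j)
  large : ∀ i, k < i → i < 2 * k + 1 → ∀ j, i < j → j < 2 * k + 1 → 0 < dot (nn i) (r j)
  card : ∀ i < 2 * k + 1, ((range (2 * k + 1)).filter fun j => 0 < dot (nn i) (r j)).card ≤ k

/-- `x, x'` on the same side of the great circle `b b'` and `b, b'` on the same side of the great circle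
`x x'` (then exactly one of the pairs of arcs `(b x, b' x')`, `(b x', b' x)` crosses) -/
def Good4 (b b' x x' : V3) : Prop :=
  0 < det3 b b' x * det3 b b' x' ∧ 0 < det3 x x' b * det3 x x' b'

/-- real key of the direction from `P` to `X`, the rotation at `P` being cut at the direction of `d` -/
noncomputable def kap (P d X : V3) : ℝ := det3 P X (crs P d) / det3 P d X

/-- key of the rotation at `P` cut at the direction of `d` -/
noncomputable def CK (r : ℕ → V3) (P d : V3) (x : ℕ) : Key :=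
  key (if 0 < det3 P d (r x) then 0 else 1) (kap P d (r x)) x

/-- integer version of `CK` -/
noncomputable def ck (k : ℕ) (r : ℕ → V3) (P d : V3) : ℕ → ℤ := rk (2 * k + 1) (CK r P d)

/-- the moving point: from `b` (`s = -1`) to `-b'` (`s = 1`) -/
noncomputable def Pt (b b' : V3) (s : ℝ) : V3 :=
  ((1 - s) / 2 * b.1 - (1 + s) / 2 * b'.1, (1 - s) / 2 * b.2.1 - (1 + s) / 2 * b'.2.1,
    (1 - s) / 2 * b.2.2 - (1 + s) / 2 * b'.2.2)

/-- the real key at the parameter `s` (affine in `s`) -/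
noncomputable def mu (r : ℕ → V3) (b b' : V3) (s : ℝ) (x : ℕ) : ℝ :=
  ((1 - s) / 2 * det3 b (r x) (crs b b') + (1 + s) / 2 * det3 (r x) b' (crs b b')) / det3 b b' (r x)

/-- key of the arrangement at the parameter `s` -/
noncomputable def MK (r : ℕ → V3) (b b' : V3) (s : ℝ) (x : ℕ) : Key :=
  key (if 0 < det3 b b' (r x) then 0 else 1) (mu r b b' s x) x

/-- integer version of `MK` -/
noncomputable def mk (k : ℕ) (r : ℕ → V3) (b b' : V3) (s : ℝ) : ℕ → ℤ := rk (2 * k + 1) (MK r b b' s)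

/-- opposite vector -/
def ng (a : V3) : V3 := (-a.1, -a.2.1, -a.2.2)

/-- `ξ_i(c) = N_i(π_c) - lo_i`; the rotation at `c` is cut at the direction of the reference vector `e` -/
noncomputable def xiS (k : ℕ) (r : ℕ → V3) (e c : V3) (i : ℕ) : ℕ := NN k (ck k r c e) i - (k - i)

/-- the feature `(i, τ)` of the blue point `c` -/
noncomputable def PhiS (k : ℕ) (r nn : ℕ → V3) (e : V3) (f : ℕ × ℕ) (c : V3) : Bool :=
  if 0 < dot (nn f.1) c then decide (f.2 < xiS k r e c f.1)
  else decide (wd k f.1 ≤ f.2 + xiS k r e c f.1)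

/-- a blue point in general position w.r.t. the reds and the reference vector -/
structure BlueS (k : ℕ) (r : ℕ → V3) (e c : V3) : Prop where
  gp : ∀ i < 2 * k + 1, ∀ j < 2 * k + 1, i ≠ j → det3 (r i) (r j) c ≠ 0
  ref : ∀ i < 2 * k + 1, det3 c e (r i) ≠ 0

/-- a pair of blue points -/
structure PairS (k : ℕ) (r : ℕ → V3) (e b b' : V3) : Prop where
  gp : ∀ i < 2 * k + 1, det3 b b' (r i) ≠ 0
  ref : det3 b e b' ≠ 0

end Vale.Agent.P040.Sph56
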