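import Vale.Agent.P040.Sph56.Keys

/-!
# Spherical pair inequality: discordant pairs of the two ends are `Good4` pairs (rows D1 - D4)
-/

namespace Vale.Agent.P040.Sph56

open Finset Vale.Agent.P040.All Vale.Agent.P040.Rect

variable {k : ℕ} {r : ℕ → V3} {e b b' : V3}

/-- (D1) `unfold det3 Pt; ring`. -/
lemma det3_Pt_neg_one (X Y : V3) : det3 (Pt b b' (-1)) X Y = det3 X Y b := by
  unfold det3 Pt
  ring

/-- (D2) `unfold det3 Pt; ring`. -/
lemma det3_Pt_one (X Y : V3) : det3 (Pt b b' 1) X Y = - det3 X Y b' := by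
  unfold det3 Pt
  ring

/-- (D3) a discordant pair `x < y`.  By `mk_lt_iff_of_lt` at `s = -1` and `s = 1`: if the blocks differ the pair is
concordant; so `0 < H_x H_y` (`H = det3 b b' (r ·) ≠ 0`).  Then `¬ (mu(-1) x - mu(-1) y ≤ 0 ↔ mu 1 x - mu 1 y ≤ 0)`; by
`mu_sub`, D1, D2, `dot_crs_pos` this is `¬ (O ≤ 0 ↔ 0 ≤ O')` with `O = det3 (r x) (r y) b ≠ 0`, `O' = det3 (r x) (r y) b' ≠ 0`,
hence `0 < O O'`.  Cf. `Rect.good_of_disc`. -/
lemma good_of_disc (hb : BlueS k r e b) (hb' : BlueS k r e b') (hp : PairS k r e b b') {x y : ℕ}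
    (hxy : x < y) (hy : y < 2 * k + 1)
    (h : ¬ (mk k r b b' (-1) x < mk k r b b' (-1) y ↔ mk k r b b' 1 x < mk k r b b' 1 y)) :
    Good4 b b' (r x) (r y) := by
  have hx : x < 2 * k + 1 := by omega
  have hHx : det3 b b' (r x) ≠ 0 := hp.gp x hx
  have hHy : det3 b b' (r y) ≠ 0 := hp.gp y hy
  have hO : det3 (r x) (r y) b ≠ 0 := hb.gp x hx y hy (by omega)
  have hO' : det3 (r x) (r y) b' ≠ 0 := hb'.gp x hx y hy (by omega)
  have hN : 0 < dot (crs b b') (crs b b') := dot_crs_pos hHx
  rw [mk_lt_iff_of_lt hxy hy, mk_lt_iff_of_lt hxy hy, mu_sub _ hHx hHy, mu_sub _ hHx hHy,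
    det3_Pt_neg_one, det3_Pt_one] at h
  have key : 0 < det3 b b' (r x) * det3 b b' (r y) →
      ¬ (dot (crs b b') (crs b b') * det3 (r x) (r y) b /
          (det3 b b' (r x) * det3 b b' (r y)) ≤ 0 ↔
        dot (crs b b') (crs b b') * -det3 (r x) (r y) b' /
          (det3 b b' (r x) * det3 b b' (r y)) ≤ 0) →
      0 < det3 (r x) (r y) b * det3 (r x) (r y) b' := by
    intro hP hh
    have e1 : (dot (crs b b') (crs b b') * det3 (r x) (r y) b /
          (det3 b b' (r x) * det3 b b' (r y)) ≤ 0) ↔ det3 (r x) (r y) b ≤ 0 := by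
      rw [div_le_iff₀ hP, zero_mul]
      constructor
      · intro h1
        by_contra h2
        push Not at h2
        have := mul_pos hN h2
        linarith
      · intro h1
        exact mul_nonpos_of_nonneg_of_nonpos hN.le h1
    have e2 : (dot (crs b b') (crs b b') * -det3 (r x) (r y) b' /
          (det3 b b' (r x) * det3 b b' (r y)) ≤ 0) ↔ 0 ≤ det3 (r x) (r y) b' := by
      rw [div_le_iff₀ hP, zero_mul]
      constructor
      · intro h1
        by_contra h2
        push Not at h2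
        have := mul_pos hN (neg_pos.2 h2)
        linarith
      · intro h1
        exact mul_nonpos_of_nonneg_of_nonpos hN.le (by linarith)
    rw [e1, e2] at hh
    rcases lt_or_gt_of_ne hO with h1 | h1
    · rcases lt_or_gt_of_ne hO' with h2 | h2
      · exact mul_pos_of_neg_of_neg h1 h2
      · exact absurd ⟨fun _ => h2.le, fun _ => h1.le⟩ hh
    · rcases lt_or_gt_of_ne hO' with h2 | h2
      · exact absurd ⟨fun h3 => absurd h3 (not_le.2 h1), fun h3 => absurd h3 (not_le.2 h2)⟩ hh
      · exact mul_pos h1 h2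
  by_cases h1 : 0 < det3 b b' (r x)
  · by_cases h2 : 0 < det3 b b' (r y)
    · simp only [h1, h2, if_true, lt_irrefl, false_or, true_and] at h
      exact ⟨mul_pos h1 h2, key (mul_pos h1 h2) h⟩
    · simp only [h1, h2, if_true, if_false] at h
      exact absurd (by simp) h
  · by_cases h2 : 0 < det3 b b' (r y)
    · simp only [h1, h2, if_true, if_false] at h
      exact absurd (by simp) h
    · simp only [h1, h2, if_false, lt_irrefl, false_or, true_and] at h
      have h1' : det3 b b' (r x) < 0 := lt_of_le_of_ne (not_lt.1 h1) hHx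
      have h2' : det3 b b' (r y) < 0 := lt_of_le_of_ne (not_lt.1 h2) hHy
      exact ⟨mul_pos_of_neg_of_neg h1' h2', key (mul_pos_of_neg_of_neg h1' h2') h⟩

open Classical in
/-- (D4) `card_le_card`; membership in `Disc` unfolds to the hypothesis of D3.  Cf. `Rect.disc_le_good`. -/
lemma disc_le_good (hb : BlueS k r e b) (hb' : BlueS k r e b') (hp : PairS k r e b b') :
    (Disc (2 * k + 1) (mk k r b b' (-1)) (mk k r b b' 1)).card ≤
      (((range (2 * k + 1)) ×ˢ (range (2 * k + 1))).filter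
        fun q => q.1 < q.2 ∧ Good4 b b' (r q.1) (r q.2)).card := by
  apply card_le_card
  intro q hq
  unfold Disc at hq
  rw [mem_filter, mem_product, mem_range, mem_range] at hq
  rw [mem_filter, mem_product, mem_range, mem_range]
  exact ⟨hq.1, hq.2.1, good_of_disc hb hb' hp hq.2.1 hq.1.2 hq.2.2⟩

end Vale.Agent.P040.Sph56
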