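import Vale.Agent.P040.Sph56.Defs

/-!
# Spherical pair inequality: extreme values of `NN` from a block of at most / at least `k` elements
(rows X1 - X9).  Everything here is abstract (keys only); compare the proofs in `All/Ext.lean`.
-/

namespace Vale.Agent.P040.Sph56

open Finset Vale.Agent.P040.All Vale.Agent.P040.Rect

variable {k x : ℕ} {κ : ℕ → ℤ} {S : ℕ → Prop} [DecidablePred S]

/-- (X1) at most `k` elements come immediately after `x`: they are all followers (`blk_c`; unfold `Foll`). -/
lemma all_foll (hκ : Inj (2 * k + 1) κ) (h : Blk (2 * k + 1) κ x S)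
    (hc : ((range (2 * k + 1)).filter S).card ≤ k) {y : ℕ} (hy : y < 2 * k + 1) (hS : S y) :
    Foll k (pos (2 * k + 1) κ) x y := by
  have h1 := blk_c hκ h hy hS
  unfold Foll
  left
  exact ⟨h1.1, by omega⟩

/-- (X2) at least `k` elements come immediately after `x`: nobody else is a follower.  If `κ x < κ z` use
`blk_b` (`pos z ≥ pos x + card + 1 > pos x + k`); if `κ z < κ x` use `blk_a` (`pos x ≤ 2k - card ≤ k`) and
`pos_lt_pos`; `κ z ≠ κ x` by injectivity.  As in `NN_lo_big`, `NN_hi_small` of `All/Ext.lean`. -/
lemma none_foll (hκ : Inj (2 * k + 1) κ) (h : Blk (2 * k + 1) κ x S)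
    (hc : k ≤ ((range (2 * k + 1)).filter S).card) {z : ℕ} (hz : z < 2 * k + 1) (hzS : ¬ S z)
    (hzx : z ≠ x) : ¬ Foll k (pos (2 * k + 1) κ) x z := by
  have hne : κ z ≠ κ x := fun he => hzx (hκ z hz x h.hx he)
  have ha := blk_a h
  unfold Foll
  rcases lt_or_gt_of_ne hne with hlt | hlt
  · have h1 := pos_lt_pos (n := 2 * k + 1) hz hlt
    omega
  · have h1 := blk_b h hz hzS hlt
    omega

/-- (X3) all smaller elements are followers (`NN_add_small`: the filter is all of `range x`). -/
lemma NN_all_small (hκ : Inj (2 * k + 1) κ) (hx : x < 2 * k + 1)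
    (h : ∀ y < x, Foll k (pos (2 * k + 1) κ) x y) : NN k κ x + x = k := by
  have h1 := NN_add_small hκ hx
  have h2 : ((range x).filter fun y => Foll k (pos (2 * k + 1) κ) x y) = range x :=
    filter_true_of_mem fun y hy => h y (mem_range.1 hy)
  rw [h2, card_range] at h1
  exact h1

/-- (X4) no smaller element is a follower (`NN_add_small`: the filter is empty). -/
lemma NN_none_small (hκ : Inj (2 * k + 1) κ) (hx : x < 2 * k + 1)
    (h : ∀ y < x, ¬ Foll k (pos (2 * k + 1) κ) x y) : NN k κ x = k := by
  have h1 := NN_add_small hκ hx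
  have e : (range x).filter (fun y => Foll k (pos (2 * k + 1) κ) x y) = ∅ := by
    rw [filter_eq_empty_iff]
    intro y hy
    exact h y (mem_range.mp hy)
  rw [e, card_empty, add_zero] at h1
  exact h1

/-- (X5) all larger elements are followers (the filter in `NN` is `{y | x < y}`; `card_gt_filter`). -/
lemma NN_all_large (hx : x < 2 * k + 1)
    (h : ∀ y, x < y → y < 2 * k + 1 → Foll k (pos (2 * k + 1) κ) x y) : NN k κ x = 2 * k - x := by
  unfold NN NNp
  have e : (range (2 * k + 1)).filter (fun y => x < y ∧ Foll k (pos (2 * k + 1) κ) x y) =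
      (range (2 * k + 1)).filter (fun y => x < y) := by
    apply filter_congr
    intro y hy
    exact ⟨fun hc => hc.1, fun hc => ⟨hc, h y hc (mem_range.mp hy)⟩⟩
  rw [e, card_gt_filter hx]
  omega

/-- (X6) no larger element is a follower (the filter in `NN` is empty). -/
lemma NN_none_large
    (h : ∀ y, x < y → y < 2 * k + 1 → ¬ Foll k (pos (2 * k + 1) κ) x y) : NN k κ x = 0 := by
  unfold NN NNp
  rw [card_eq_zero, filter_eq_empty_iff]
  intro y hy hc
  exact h y hc.1 (mem_range.mp hy) hc.2

/-- (X7) the set of the two extreme values is invariant under reversal (`NN_neg`; `omega` after cases on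
`min`). -/
lemma ext_neg (hκ : Inj (2 * k + 1) κ) (hx : x < 2 * k + 1)
    (h : NN k (fun y => - κ y) x = k - x ∨ NN k (fun y => - κ y) x = min k (2 * k - x)) :
    NN k κ x = k - x ∨ NN k κ x = min k (2 * k - x) := by
  have h1 := NN_neg hκ hx
  rcases le_total k (2 * k - x) with h2 | h2
  · rw [min_eq_left h2] at h ⊢
    omega
  · rw [min_eq_right h2] at h ⊢
    omega

variable {r nn : ℕ → V3}

/-- (X8) the positive side of the circle `nn x` comes immediately after `x`.  `filter S ⊆ filter (0 < dot ..)`
(`¬ S x` by `Blk.hxS`), so `card ≤ k` (`Lab.card`), X1.  If `x ≤ k`: `Lab.small`, X3 (left alternative).  If `k < x`: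
`Lab.large`, X5 (right alternative, `2k - x < k`). -/
lemma ext_of_blk_pos (hL : Lab k r nn) (hκ : Inj (2 * k + 1) κ) (hx : x < 2 * k + 1)
    (hB : Blk (2 * k + 1) κ x S)
    (hS : ∀ y < 2 * k + 1, y ≠ x → (S y ↔ 0 < dot (nn x) (r y))) :
    NN k κ x = k - x ∨ NN k κ x = min k (2 * k - x) := by
  have hc : ((range (2 * k + 1)).filter S).card ≤ k := by
    refine le_trans (card_le_card ?_) (hL.card x hx)
    intro y hy
    rw [mem_filter, mem_range] at hy ⊢
    have hyx : y ≠ x := by
      rintro rfl
      exact hB.hxS hy.2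
    exact ⟨hy.1, (hS y hy.1 hyx).1 hy.2⟩
  rcases Nat.lt_or_ge k x with hkx | hxk
  · right
    have h5 : NN k κ x = 2 * k - x := by
      apply NN_all_large hx
      intro y hxy hy
      exact all_foll hκ hB hc hy ((hS y hy (by omega)).2 (hL.large x hkx hx y hxy hy))
    rw [h5]
    omega
  · left
    have h3 : NN k κ x + x = k := by
      apply NN_all_small hκ hx
      intro y hyx
      exact all_foll hκ hB hc (by omega) ((hS y (by omega) (by omega)).2 (hL.small x hxk y hyx))
    omega

/-- (X9) the negative side of the circle `nn x` comes immediately after `x`.  `range (2k+1)` is the disjoint union of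
`{x}`, `filter S` and `filter (0 < dot ..)` (`Lab.ne`, `Lab.perp`), so `k ≤ card (filter S)`; X2.  If `x ≤ k`: `Lab.small`, X4
(right alternative, `k ≤ 2k - x`).  If `k < x`: `Lab.large`, X6 (left alternative, `k - x = 0`). -/
lemma ext_of_blk_neg (hL : Lab k r nn) (hκ : Inj (2 * k + 1) κ) (hx : x < 2 * k + 1)
    (hB : Blk (2 * k + 1) κ x S)
    (hS : ∀ y < 2 * k + 1, y ≠ x → (S y ↔ dot (nn x) (r y) < 0)) :
    NN k κ x = k - x ∨ NN k κ x = min k (2 * k - x) := by
  classical
  have hc : k ≤ ((range (2 * k + 1)).filter S).card := by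
    have hsub : range (2 * k + 1) ⊆
        insert x (((range (2 * k + 1)).filter S) ∪
          ((range (2 * k + 1)).filter fun j => 0 < dot (nn x) (r j))) := by
      intro y hy
      have hy' := mem_range.1 hy
      by_cases hyx : y = x
      · subst hyx; exact mem_insert_self _ _
      · refine mem_insert_of_mem (mem_union.2 ?_)
        rcases lt_or_gt_of_ne (hL.ne x hx y hy' (Ne.symm hyx)) with h | h
        · exact Or.inl (mem_filter.2 ⟨hy, (hS y hy' hyx).2 h⟩)
        · exact Or.inr (mem_filter.2 ⟨hy, h⟩)
    have h1 := card_le_card hsub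
    have h2 := card_insert_le x (((range (2 * k + 1)).filter S) ∪
          ((range (2 * k + 1)).filter fun j => 0 < dot (nn x) (r j)))
    have h3 := card_union_le ((range (2 * k + 1)).filter S)
          ((range (2 * k + 1)).filter fun j => 0 < dot (nn x) (r j))
    have h4 := hL.card x hx
    rw [card_range] at h1
    omega
  rcases Nat.lt_or_ge k x with hkx | hkx
  · left
    have := NN_none_large (k := k) (x := x) (κ := κ) (fun y hxy hy =>
      none_foll hκ hB hc hy
        (fun hSy => absurd ((hS y hy (by omega)).1 hSy) (not_lt.2 (hL.large x hkx hx y hxy hy).le))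
        (by omega))
    omega
  · right
    have := NN_none_small (k := k) (x := x) (κ := κ) hκ hx (fun y hyx =>
      none_foll hκ hB hc (by omega)
        (fun hSy => absurd ((hS y (by omega) (by omega)).1 hSy) (not_lt.2 (hL.small x hkx y hyx).le))
        (by omega))
    omega

end Vale.Agent.P040.Sph56
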