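import Vale.Agent.P040.Sph56.Keys
import Vale.Agent.P040.Sph56.Ext2

/-!
# Spherical pair inequality: the moment when the moving point crosses the circle of the row `i`
(rows E1 - E10)
-/

namespace Vale.Agent.P040.Sph56

open Finset Vale.Agent.P040.All Vale.Agent.P040.Rect

variable {k : ℕ} {r nn : ℕ → V3} {b b' : V3}

/-- the parameter at which the moving point crosses the circle `(nn i)^⊥` -/
noncomputable def sgS (nn : ℕ → V3) (b b' : V3) (i : ℕ) : ℝ :=
  (dot (nn i) b - dot (nn i) b') / (dot (nn i) b + dot (nn i) b')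

/-- (E1) `unfold dot Pt; ring`. -/
lemma dot_Pt (n : V3) (s : ℝ) :
    dot n (Pt b b' s) = (1 - s) / 2 * dot n b - (1 + s) / 2 * dot n b' := by
  unfold dot Pt
  ring

/-- (E2) `β = dot (nn i) b`, `β' = dot (nn i) b'` are both `> 0` or both `≤ 0`.  If `β + β' = 0` then `β = β' = 0` and
`sgS = 0`; otherwise `field_simp`, and `|β - β'| ≤ |β + β'|`. -/
lemma sgS_spec {i : ℕ} (h : 0 < dot (nn i) b ↔ 0 < dot (nn i) b') :
    dot (nn i) (Pt b b' (sgS nn b b' i)) = 0 ∧ -1 ≤ sgS nn b b' i ∧ sgS nn b b' i ≤ 1 := by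
  rw [dot_Pt]
  unfold sgS
  generalize dot (nn i) b = β at h ⊢
  generalize dot (nn i) b' = β' at h ⊢
  by_cases h0 : β + β' = 0
  · have hb : β = 0 := by
      rcases lt_trichotomy β 0 with h1 | h1 | h1
      · have : 0 < β' := by linarith
        have := h.2 this
        linarith
      · exact h1
      · have := h.1 h1
        linarith
    have hb' : β' = 0 := by linarith
    rw [hb, hb']
    norm_num
  · refine ⟨?_, ?_, ?_⟩
    · field_simp
      ring
    · by_cases h1 : 0 < β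
      · have h2 := h.1 h1
        rw [le_div_iff₀ (by linarith)]
        linarith
      · have h2 : ¬ 0 < β' := fun h3 => h1 (h.2 h3)
        have h3 : β + β' < 0 := lt_of_le_of_ne (by linarith [not_lt.1 h1, not_lt.1 h2]) h0
        rw [le_div_iff_of_neg h3]
        linarith [not_lt.1 h1, not_lt.1 h2]
    · by_cases h1 : 0 < β
      · have h2 := h.1 h1
        rw [div_le_iff₀ (by linarith)]
        linarith
      · have h2 : ¬ 0 < β' := fun h3 => h1 (h.2 h3)
        have h3 : β + β' < 0 := lt_of_le_of_ne (by linarith [not_lt.1 h1, not_lt.1 h2]) h0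
        rw [div_le_iff_of_neg h3]
        linarith [not_lt.1 h1, not_lt.1 h2]

/-- (E3) `unfold dot det3; ring`. -/
lemma perp_identity (n P v y : V3) :
    dot n n * det3 P v y = det3 P v n * dot n y + dot P n * det3 n v y - dot v n * det3 n P y := by
  unfold dot det3
  ring

/-- (E4) `unfold det3 Pt; ring`. -/
lemma det3_Pt (s : ℝ) (X Y : V3) :
    det3 (Pt b b' s) X Y = (1 - s) / 2 * det3 b X Y - (1 + s) / 2 * det3 b' X Y := by
  unfold det3 Pt
  ring

/-- (E5) `lam = det3 P v n ≠ 0`.  If `lam = 0`, E3 with `y = b'` and `y = b` gives `det3 P v b' = det3 P v b = 0`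
(`dot n n ≠ 0`); by E4 `det3 P v b' = -(1-s)/2 * det3 b b' v` and `det3 P v b = -(1+s)/2 * det3 b b' v`
(`det3 b' v b' = 0`, `det3 b v b = 0`, `det3 b v b' = - det3 b b' v`, `det3 b' v b = det3 b b' v`: `unfold det3; ring`), so
`1 - s = 0 = 1 + s`. -/
lemma lam_ne {n v : V3} {s : ℝ} (hn : dot n n ≠ 0) (hv : det3 b b' v ≠ 0)
    (h1 : dot n (Pt b b' s) = 0) (h2 : dot n v = 0) : det3 (Pt b b' s) v n ≠ 0 := by
  intro h0
  have c1 : dot (Pt b b' s) n = 0 := by
    have : dot (Pt b b' s) n = dot n (Pt b b' s) := by unfold dot; ring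
    rw [this, h1]
  have c2 : dot v n = 0 := by
    have : dot v n = dot n v := by unfold dot; ring
    rw [this, h2]
  have key : ∀ y : V3, det3 (Pt b b' s) v y = 0 := by
    intro y
    have e := perp_identity n (Pt b b' s) v y
    rw [h0, c1, c2] at e
    have e' : dot n n * det3 (Pt b b' s) v y = 0 := by rw [e]; ring
    rcases mul_eq_zero.mp e' with h | h
    · exact absurd h hn
    · exact h
  have k1 := key b'
  have k2 := key b
  rw [det3_Pt] at k1 k2
  have d1 : det3 b' v b' = 0 := by unfold det3; ring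
  have d2 : det3 b v b = 0 := by unfold det3; ring
  have d3 : det3 b v b' = - det3 b b' v := by unfold det3; ring
  have d4 : det3 b' v b = det3 b b' v := by unfold det3; ring
  rw [d1, d3] at k1
  rw [d2, d4] at k2
  have m1 : (1 - s) * det3 b b' v = 0 := by linarith
  have m2 : (1 + s) * det3 b b' v = 0 := by linarith
  have s1 : 1 - s = 0 := by
    rcases mul_eq_zero.mp m1 with h | h
    · exact h
    · exact absurd h hv
  have s2 : 1 + s = 0 := by
    rcases mul_eq_zero.mp m2 with h | h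
    · exact h
    · exact absurd h hv
  linarith

/-- (E6) `i` above the circle `b b'`: the arrangement is `[U∩S⁺] i [U∩S⁻][D∩S⁻][D∩S⁺]`,
`S⁻ = {y : det3 P (r i) (r y) < 0}`.  `mk_lt_iff`, `mu_sub`, `dot_crs_pos`:
`mu i - mu y = D * det3 P (r i) (r y) / (h_i h_y)`, `D > 0`.  (`det3 P X X = 0`.)  Cf. `Rect.blk_left_up`. -/
lemma blk_up (hp : ∀ x < 2 * k + 1, det3 b b' (r x) ≠ 0) {s : ℝ} {i : ℕ} (hi : i < 2 * k + 1)
    (hu : 0 < det3 b b' (r i))
    (hne : ∀ y < 2 * k + 1, y ≠ i → det3 (Pt b b' s) (r i) (r y) ≠ 0) :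
    Blk (2 * k + 1) (mk k r b b' s) i (fun y => det3 (Pt b b' s) (r i) (r y) < 0) := by
  have hD : 0 < dot (crs b b') (crs b b') := dot_crs_pos (hp i hi)
  have hself : det3 (Pt b b' s) (r i) (r i) = 0 := by unfold det3; ring
  have hUD : ∀ {x y : ℕ}, x < 2 * k + 1 → 0 < det3 b b' (r x) → det3 b b' (r y) < 0 →
      mk k r b b' s x < mk k r b b' s y := by
    intro x y hx h1 h2
    rw [mk_lt_iff hx]
    left
    rw [if_pos h1, if_neg (not_lt.2 h2.le)]
    norm_num
  have hUU : ∀ {x y : ℕ}, x < 2 * k + 1 → 0 < det3 b b' (r x) → 0 < det3 b b' (r y) →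
      mu r b b' s x < mu r b b' s y → mk k r b b' s x < mk k r b b' s y := by
    intro x y hx h1 h2 h
    rw [mk_lt_iff hx]
    right
    rw [if_pos h1, if_pos h2]
    exact ⟨rfl, Or.inl h⟩
  have hDD : ∀ {x y : ℕ}, x < 2 * k + 1 → det3 b b' (r x) < 0 → det3 b b' (r y) < 0 →
      mu r b b' s x < mu r b b' s y → mk k r b b' s x < mk k r b b' s y := by
    intro x y hx h1 h2 h
    rw [mk_lt_iff hx]
    right
    rw [if_neg (not_lt.2 h1.le), if_neg (not_lt.2 h2.le)]
    exact ⟨rfl, Or.inl h⟩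
  have hsub : ∀ y < 2 * k + 1, mu r b b' s i - mu r b b' s y =
      dot (crs b b') (crs b b') * det3 (Pt b b' s) (r i) (r y) /
        (det3 b b' (r i) * det3 b b' (r y)) := fun y hy => mu_sub s (hp i hi) (hp y hy)
  refine ⟨hi, ?_, ?_, ?_⟩
  · show ¬ (det3 (Pt b b' s) (r i) (r i) < 0)
    rw [hself]
    exact lt_irrefl _
  · intro y hy hS
    have hS' : det3 (Pt b b' s) (r i) (r y) < 0 := hS
    rcases lt_or_gt_of_ne (hp y hy) with hd | hd
    · exact hUD hi hu hd
    · apply hUU hi hu hd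
      have h1 := hsub y hy
      have h2 : dot (crs b b') (crs b b') * det3 (Pt b b' s) (r i) (r y) /
        (det3 b b' (r i) * det3 b b' (r y)) < 0 :=
        div_neg_of_neg_of_pos (mul_neg_of_pos_of_neg hD hS') (mul_pos hu hd)
      linarith
  · intro y hy hS z hz hzS hiz
    have hS' : det3 (Pt b b' s) (r i) (r y) < 0 := hS
    have hzS' : ¬ (det3 (Pt b b' s) (r i) (r z) < 0) := hzS
    have hzi : z ≠ i := by
      rintro rfl
      exact lt_irrefl _ hiz
    have hTz : 0 < det3 (Pt b b' s) (r i) (r z) :=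
      lt_of_le_of_ne (not_lt.1 hzS') (hne z hz hzi).symm
    rcases lt_or_gt_of_ne (hp z hz) with hdz | hdz
    · have h1 := hsub z hz
      have h2 : dot (crs b b') (crs b b') * det3 (Pt b b' s) (r i) (r z) /
          (det3 b b' (r i) * det3 b b' (r z)) < 0 :=
        div_neg_of_pos_of_neg (mul_pos hD hTz) (mul_neg_of_pos_of_neg hu hdz)
      rcases lt_or_gt_of_ne (hp y hy) with hd | hd
      · apply hDD hy hd hdz
        have h3 := hsub y hy
        have h4 : 0 < dot (crs b b') (crs b b') * det3 (Pt b b' s) (r i) (r y) /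
            (det3 b b' (r i) * det3 b b' (r y)) :=
          div_pos_of_neg_of_neg (mul_neg_of_pos_of_neg hD hS') (mul_neg_of_pos_of_neg hu hd)
        linarith
      · exact hUD hy hd hdz
    · exfalso
      have h1 := hsub z hz
      have h2 : 0 < dot (crs b b') (crs b b') * det3 (Pt b b' s) (r i) (r z) /
          (det3 b b' (r i) * det3 b b' (r z)) :=
        div_pos (mul_pos hD hTz) (mul_pos hu hdz)
      have h3 : mk k r b b' s z < mk k r b b' s i := hUU hz hdz hu (by linarith)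
      exact lt_asymm hiz h3

/-- (E7) `i` below the circle `b b'`: the arrangement is `[U∩S⁻][U∩S⁺][D∩S⁺] i [D∩S⁻]`, so in the reversed
arrangement `S⁺` comes immediately after `i`.  Cf. `Rect.blk_left_down`. -/
lemma blk_down (hp : ∀ x < 2 * k + 1, det3 b b' (r x) ≠ 0) {s : ℝ} {i : ℕ} (hi : i < 2 * k + 1)
    (hu : det3 b b' (r i) < 0)
    (hne : ∀ y < 2 * k + 1, y ≠ i → det3 (Pt b b' s) (r i) (r y) ≠ 0) :
    Blk (2 * k + 1) (fun y => - mk k r b b' s y) i (fun y => 0 < det3 (Pt b b' s) (r i) (r y)) := by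
  have hD : 0 < dot (crs b b') (crs b b') := dot_crs_pos (hp i hi)
  have hself : det3 (Pt b b' s) (r i) (r i) = 0 := by unfold det3; ring
  have hsub : ∀ y < 2 * k + 1, mu r b b' s i - mu r b b' s y =
      dot (crs b b') (crs b b') * det3 (Pt b b' s) (r i) (r y) /
        (det3 b b' (r i) * det3 b b' (r y)) := fun y hy => mu_sub s (hp i hi) (hp y hy)
  have hci : (if 0 < det3 b b' (r i) then (0 : ℤ) else 1) = 1 := if_neg (not_lt.2 hu.le)
  have hcU : ∀ y, 0 < det3 b b' (r y) → (if 0 < det3 b b' (r y) then (0 : ℤ) else 1) = 0 :=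
    fun y h => if_pos h
  have hcD : ∀ y, det3 b b' (r y) < 0 → (if 0 < det3 b b' (r y) then (0 : ℤ) else 1) = 1 :=
    fun y h => if_neg (not_lt.2 h.le)
  refine ⟨hi, by rw [hself]; exact lt_irrefl _, ?_, ?_⟩
  · intro y hy hS
    rw [neg_lt_neg_iff, mk_lt_iff hy, hci]
    rcases lt_or_gt_of_ne (hp y hy) with hd | hd
    · rw [hcD y hd]
      refine Or.inr ⟨rfl, Or.inl ?_⟩
      have h1 := hsub y hy
      have h2 : 0 < dot (crs b b') (crs b b') * det3 (Pt b b' s) (r i) (r y) /
          (det3 b b' (r i) * det3 b b' (r y)) :=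
        div_pos (mul_pos hD hS) (mul_pos_of_neg_of_neg hu hd)
      linarith
    · rw [hcU y hd]
      exact Or.inl (by norm_num)
  · intro y hy hS z hz hzS hiz
    rw [neg_lt_neg_iff] at hiz ⊢
    have hzi : z ≠ i := by
      rintro rfl
      exact lt_irrefl _ hiz
    have hzneg : det3 (Pt b b' s) (r i) (r z) < 0 :=
      lt_of_le_of_ne (not_lt.1 hzS) (hne z hz hzi)
    rw [mk_lt_iff hz, hci] at hiz
    rcases lt_or_gt_of_ne (hp z hz) with hdz | hdz
    · exfalso
      rw [hcD z hdz] at hiz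
      have h1 := hsub z hz
      have h2 : dot (crs b b') (crs b b') * det3 (Pt b b' s) (r i) (r z) /
          (det3 b b' (r i) * det3 b b' (r z)) < 0 :=
        div_neg_of_neg_of_pos (mul_neg_of_pos_of_neg hD hzneg) (mul_pos_of_neg_of_neg hu hdz)
      rcases hiz with h | ⟨_, h | ⟨h, _⟩⟩
      · exact lt_irrefl _ h
      · linarith
      · linarith
    · rw [mk_lt_iff hz, hcU z hdz]
      rcases lt_or_gt_of_ne (hp y hy) with hd | hd
      · rw [hcD y hd]
        exact Or.inl (by norm_num)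
      · rw [hcU y hd]
        refine Or.inr ⟨rfl, Or.inl ?_⟩
        have h1 := hsub z hz
        have h2 : 0 < dot (crs b b') (crs b b') * det3 (Pt b b' s) (r i) (r z) /
            (det3 b b' (r i) * det3 b b' (r z)) :=
          div_pos_of_neg_of_neg (mul_neg_of_pos_of_neg hD hzneg) (mul_neg_of_neg_of_pos hu hdz)
        have h3 := hsub y hy
        have h4 : dot (crs b b') (crs b b') * det3 (Pt b b' s) (r i) (r y) /
            (det3 b b' (r i) * det3 b b' (r y)) < 0 :=
          div_neg_of_pos_of_neg (mul_pos hD hS) (mul_neg_of_neg_of_pos hu hd)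
        linarith

/-- (E8) from E3 (`dot P n = dot n P`: `unfold dot; ring`). -/
lemma det_eq_lam {n P v : V3} (h1 : dot n P = 0) (h2 : dot n v = 0) (y : V3) :
    dot n n * det3 P v y = det3 P v n * dot n y := by
  have e1 : dot P n = 0 := by
    rw [← h1]; unfold dot; ring
  have e2 : dot v n = 0 := by
    rw [← h2]; unfold dot; ring
  rw [perp_identity n P v y, e1, e2]
  ring

/-- (E9) `dot n n > 0` if `dot n y ≠ 0` for some `y` (sum of squares; if it is `0` all coordinates vanish). -/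
lemma dot_self_pos {n y : V3} (h : dot n y ≠ 0) : 0 < dot n n := by
  unfold dot at *
  by_contra hc
  have h1 : n.1 * n.1 + n.2.1 * n.2.1 + n.2.2 * n.2.2 ≤ 0 := not_lt.mp hc
  have a1 : n.1 = 0 := mul_self_eq_zero.mp (le_antisymm
    (by nlinarith [mul_self_nonneg n.2.1, mul_self_nonneg n.2.2]) (mul_self_nonneg _))
  have a2 : n.2.1 = 0 := mul_self_eq_zero.mp (le_antisymm
    (by nlinarith [mul_self_nonneg n.1, mul_self_nonneg n.2.2]) (mul_self_nonneg _))
  have a3 : n.2.2 = 0 := mul_self_eq_zero.mp (le_antisymm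
    (by nlinarith [mul_self_nonneg n.1, mul_self_nonneg n.2.1]) (mul_self_nonneg _))
  apply h
  rw [a1, a2, a3]
  ring

private lemma sign_aux31 {D a l c : ℝ} (hD : 0 < D) (h : D * a = l * c) :
    (0 < l → ((0 < a ↔ 0 < c) ∧ (a < 0 ↔ c < 0))) ∧
      (l < 0 → ((0 < a ↔ c < 0) ∧ (a < 0 ↔ 0 < c))) := by
  refine ⟨fun hl => ⟨⟨fun ha => ?_, fun hc => ?_⟩, ⟨fun ha => ?_, fun hc => ?_⟩⟩,
    fun hl => ⟨⟨fun ha => ?_, fun hc => ?_⟩, ⟨fun ha => ?_, fun hc => ?_⟩⟩⟩
  · by_contra hc
    nlinarith [mul_pos hD ha, mul_nonneg hl.le (not_lt.mp hc |> neg_nonneg.mpr)]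
  · by_contra ha
    nlinarith [mul_pos hl hc, mul_nonneg hD.le (not_lt.mp ha |> neg_nonneg.mpr)]
  · by_contra hc
    nlinarith [mul_pos hD (neg_pos.mpr ha), mul_nonneg hl.le (not_lt.mp hc)]
  · by_contra ha
    nlinarith [mul_pos hl (neg_pos.mpr hc), mul_nonneg hD.le (not_lt.mp ha)]
  · by_contra hc
    nlinarith [mul_pos hD ha, mul_nonneg (neg_pos.mpr hl).le (not_lt.mp hc)]
  · by_contra ha
    nlinarith [mul_pos (neg_pos.mpr hl) (neg_pos.mpr hc),
      mul_nonneg hD.le (not_lt.mp ha |> neg_nonneg.mpr)]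
  · by_contra hc
    nlinarith [mul_pos hD (neg_pos.mpr ha),
      mul_nonneg (neg_pos.mpr hl).le (not_lt.mp hc |> neg_nonneg.mpr)]
  · by_contra ha
    nlinarith [mul_pos (neg_pos.mpr hl) hc, mul_nonneg hD.le (not_lt.mp ha)]

/-- (E10) **`NN` is extreme when the moving point lies on the circle of the row `i`.**
`n = nn i`, `P = Pt b b' s`, `lam = det3 P (r i) n ≠ 0` (E5; `dot n n > 0` by E9 with some `j ≠ i`, `j < 2k+1`, which exists
because `0 < k`; `Lab.ne`).  By E8 the sign of `det3 P (r i) (r y)` is `sign lam * sign (dot n (r y))`, in particular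
`≠ 0` for `y ≠ i`.  Four cases: `0 < h_i`, `lam < 0`: E6 + `ext_of_blk_pos`;  `0 < h_i`, `0 < lam`: E6 + `ext_of_blk_neg`;
`h_i < 0`, `0 < lam`: E7 + `ext_of_blk_pos` for the reversed key (`inj_neg`), then `ext_neg`;
`h_i < 0`, `lam < 0`: E7 + `ext_of_blk_neg`, then `ext_neg`. -/
lemma NN_pass (hL : Lab k r nn) (hp : ∀ x < 2 * k + 1, det3 b b' (r x) ≠ 0) (hk : 0 < k) {s : ℝ}
    {i : ℕ} (hi : i < 2 * k + 1) (hs : dot (nn i) (Pt b b' s) = 0) :
    NN k (mk k r b b' s) i = k - i ∨ NN k (mk k r b b' s) i = min k (2 * k - i) := by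
  classical
  obtain ⟨j, hj, hji⟩ : ∃ j, j < 2 * k + 1 ∧ i ≠ j := by
    by_cases h0 : i = 0
    · exact ⟨1, by omega, by omega⟩
    · exact ⟨0, by omega, h0⟩
  have hnn : 0 < dot (nn i) (nn i) := dot_self_pos (hL.ne i hi j hj hji)
  have hperp := hL.perp i hi
  have hlam : det3 (Pt b b' s) (r i) (nn i) ≠ 0 := lam_ne hnn.ne' (hp i hi) hs hperp
  have key : ∀ y, dot (nn i) (nn i) * det3 (Pt b b' s) (r i) (r y) =
      det3 (Pt b b' s) (r i) (nn i) * dot (nn i) (r y) := fun y => det_eq_lam hs hperp (r y)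
  have hne : ∀ y < 2 * k + 1, y ≠ i → det3 (Pt b b' s) (r i) (r y) ≠ 0 := by
    intro y hy hyi h0
    have h1 := key y
    rw [h0, mul_zero] at h1
    exact (mul_ne_zero hlam (hL.ne i hi y hy (Ne.symm hyi))) h1.symm
  have hinj := inj_mk (k := k) (r := r) (b := b) (b' := b') s
  rcases lt_or_gt_of_ne (hp i hi) with hu | hu
  · have hB := blk_down hp hi hu hne
    apply ext_neg hinj hi
    rcases lt_or_gt_of_ne hlam with hl | hl
    · exact ext_of_blk_neg hL (inj_neg hinj) hi hB
        (fun y _ _ => ((sign_aux31 hnn (key y)).2 hl).1)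
    · exact ext_of_blk_pos hL (inj_neg hinj) hi hB
        (fun y _ _ => ((sign_aux31 hnn (key y)).1 hl).1)
  · have hB := blk_up hp hi hu hne
    rcases lt_or_gt_of_ne hlam with hl | hl
    · exact ext_of_blk_pos hL hinj hi hB
        (fun y _ _ => ((sign_aux31 hnn (key y)).2 hl).2)
    · exact ext_of_blk_neg hL hinj hi hB
        (fun y _ _ => ((sign_aux31 hnn (key y)).1 hl).2)

end Vale.Agent.P040.Sph56
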