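import Vale.Agent.P040.Sph56.Ref
import Vale.Agent.P040.Sph56.Pass
import Vale.Agent.P040.Sph56.DiscGood

/-!
# Spherical pair inequality (rows Q1 - Q3)
-/

namespace Vale.Agent.P040.Sph56

open Finset Vale.Agent.P040.All Vale.Agent.P040.Rect

variable {k : ℕ} {r nn : ℕ → V3} {e b b' c : V3}

/-- (Q1) `NN_ge`, `NN_le_k`, `NN_le_sub`, `inj_ck`; `unfold xiS wd`; `omega`.  Cf. `Rect.xiR_spec`. -/
lemma xiS_spec {i : ℕ} (hi : i < 2 * k + 1) :
    xiS k r e c i ≤ wd k i ∧ NN k (ck k r c e) i = xiS k r e c i + (k - i) := by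
  have h1 := NN_ge (k := k) (κ := ck k r c e) inj_ck hi
  have h2 := NN_le_k (k := k) (κ := ck k r c e) inj_ck hi
  have h3 := NN_le_sub (k := k) (κ := ck k r c e) i
  unfold xiS wd
  omega

/-- (Q2) `b`, `b'` on different sides of the circle of the row `i`: one thermometer is filled from the bottom, the other
one from the top: `therm_bt` (for the other order rewrite the filter with `eq_comm`), Q1, `NN_left`, `NN_right`;
`2 (k - i) + wd k i = 2k - i`; `abs` cases, `omega`.  Cf. `Rect.row_between`. -/
lemma row_diff (hb : BlueS k r e b) (hb' : BlueS k r e b') (hp : PairS k r e b b') {i : ℕ}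
    (hi : i < 2 * k + 1) (h : ¬ (0 < dot (nn i) b ↔ 0 < dot (nn i) b')) :
    (((range (wd k i)).filter fun τ => PhiS k r nn e (i, τ) b = PhiS k r nn e (i, τ) b').card : ℤ) ≤
      |(NN k (mk k r b b' (-1)) i : ℤ) - NN k (mk k r b b' 1) i| := by
  obtain ⟨ha, ea⟩ := xiS_spec (k := k) (r := r) (e := e) (c := b) hi
  obtain ⟨hb2, eb⟩ := xiS_spec (k := k) (r := r) (e := e) (c := b') hi
  have e1 := NN_left hb hp hi
  have e2 := NN_right hb' hp hi
  have g1 := le_abs_self ((NN k (mk k r b b' (-1)) i : ℤ) - NN k (mk k r b b' 1) i)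
  have g2 := neg_abs_le ((NN k (mk k r b b' (-1)) i : ℤ) - NN k (mk k r b b' 1) i)
  by_cases h1 : 0 < dot (nn i) b
  · have h2 : ¬ 0 < dot (nn i) b' := fun h2 => h ⟨fun _ => h2, fun _ => h1⟩
    have ht := therm_bt ha hb2
    have hf : ((range (wd k i)).filter fun τ => PhiS k r nn e (i, τ) b = PhiS k r nn e (i, τ) b') =
        ((range (wd k i)).filter fun τ =>
          decide (τ < xiS k r e b i) = decide (wd k i ≤ τ + xiS k r e b' i)) := by
      apply filter_congr
      intro τ _
      unfold PhiS
      simp only [h1, h2, if_true, if_false]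
    rw [hf]
    unfold wd at ht ha hb2 ⊢
    omega
  · have h2 : 0 < dot (nn i) b' := by
      by_contra h2
      exact h ⟨fun h' => absurd h' h1, fun h' => absurd h' h2⟩
    have ht := therm_bt hb2 ha
    have hf : ((range (wd k i)).filter fun τ => PhiS k r nn e (i, τ) b = PhiS k r nn e (i, τ) b') =
        ((range (wd k i)).filter fun τ =>
          decide (τ < xiS k r e b' i) = decide (wd k i ≤ τ + xiS k r e b i)) := by
      apply filter_congr
      intro τ _
      unfold PhiS
      simp only [h1, h2, if_true, if_false]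
      exact eq_comm
    rw [hf]
    unfold wd at ht ha hb2 ⊢
    omega

/-- (Q3) `b`, `b'` on the same side: both thermometers from the bottom (`therm_bb`) or both from the top (`therm_tt`):
agreements `≤ w - |ξ - ξ'|`; the middle value is `k - i` or `min k (2k - i)` (`NN_pass` with `sgS_spec`; if `k = 0` then
`wd 0 i = 0` and the left side is `0`); `NN_left`, `NN_right`, Q1; `abs` cases, `omega`.  Cf. `Rect.row_outside`. -/
lemma row_same (hL : Lab k r nn) (hb : BlueS k r e b) (hb' : BlueS k r e b') (hp : PairS k r e b b')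
    {i : ℕ} (hi : i < 2 * k + 1) (h : 0 < dot (nn i) b ↔ 0 < dot (nn i) b') :
    (((range (wd k i)).filter fun τ => PhiS k r nn e (i, τ) b = PhiS k r nn e (i, τ) b').card : ℤ) ≤
      |(NN k (mk k r b b' (-1)) i : ℤ) - NN k (mk k r b b' (sgS nn b b' i)) i| +
      |(NN k (mk k r b b' (sgS nn b b' i)) i : ℤ) - NN k (mk k r b b' 1) i| := by
  rcases Nat.eq_zero_or_pos k with hk | hk
  · subst hk
    have hw : wd 0 i = 0 := by unfold wd; omega
    rw [hw]
    simp only [range_zero, filter_empty, card_empty, Nat.cast_zero]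
    positivity
  obtain ⟨ha, ea⟩ := xiS_spec (k := k) (r := r) (e := e) (c := b) hi
  obtain ⟨hb2, eb⟩ := xiS_spec (k := k) (r := r) (e := e) (c := b') hi
  have e1 := NN_left hb hp hi
  have e2 := NN_right hb' hp hi
  have e3 := NN_pass hL hp.gp hk hi (sgS_spec h).1
  have g1 := le_abs_self ((NN k (mk k r b b' (-1)) i : ℤ) - NN k (mk k r b b' (sgS nn b b' i)) i)
  have g2 := neg_abs_le ((NN k (mk k r b b' (-1)) i : ℤ) - NN k (mk k r b b' (sgS nn b b' i)) i)
  have g3 := le_abs_self ((NN k (mk k r b b' (sgS nn b b' i)) i : ℤ) - NN k (mk k r b b' 1) i)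
  have g4 := neg_abs_le ((NN k (mk k r b b' (sgS nn b b' i)) i : ℤ) - NN k (mk k r b b' 1) i)
  by_cases h1 : 0 < dot (nn i) b
  · have h2 : 0 < dot (nn i) b' := h.1 h1
    have ht := therm_bb ha hb2
    have hf : ((range (wd k i)).filter fun τ => PhiS k r nn e (i, τ) b = PhiS k r nn e (i, τ) b') =
        ((range (wd k i)).filter fun τ =>
          decide (τ < xiS k r e b i) = decide (τ < xiS k r e b' i)) := by
      apply filter_congr
      intro τ _
      unfold PhiS
      simp only [h1, h2, if_true]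
    rw [hf]
    unfold wd at ht ha hb2 ⊢
    rcases e3 with e3 | e3 <;> omega
  · have h2 : ¬ 0 < dot (nn i) b' := fun hh => h1 (h.2 hh)
    have ht := therm_tt ha hb2
    have hf : ((range (wd k i)).filter fun τ => PhiS k r nn e (i, τ) b = PhiS k r nn e (i, τ) b') =
        ((range (wd k i)).filter fun τ =>
          decide (wd k i ≤ τ + xiS k r e b i) = decide (wd k i ≤ τ + xiS k r e b' i)) := by
      apply filter_congr
      intro τ _
      unfold PhiS
      simp only [h1, h2, if_false]
    rw [hf]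
    unfold wd at ht ha hb2 ⊢
    rcases e3 with e3 | e3 <;> omega

open Classical in
/-- the rows together -/
lemma row_le_term (hL : Lab k r nn) (hb : BlueS k r e b) (hb' : BlueS k r e b')
    (hp : PairS k r e b b') {i : ℕ} (hi : i < 2 * k + 1) :
    (((range (wd k i)).filter fun τ => PhiS k r nn e (i, τ) b = PhiS k r nn e (i, τ) b').card : ℤ) ≤
      term k (mk k r b b')
        ((range (2 * k + 1)).filter fun i => (0 < dot (nn i) b ↔ 0 < dot (nn i) b'))
        (sgS nn b b') (-1) 1 i := by
  unfold term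
  by_cases h : (0 < dot (nn i) b ↔ 0 < dot (nn i) b')
  · have hm : i ∈ (range (2 * k + 1)).filter fun i => (0 < dot (nn i) b ↔ 0 < dot (nn i) b') :=
      mem_filter.2 ⟨mem_range.2 hi, h⟩
    rw [if_pos hm]
    exact row_same hL hb hb' hp hi h
  · have hm : i ∉ (range (2 * k + 1)).filter fun i => (0 < dot (nn i) b ↔ 0 < dot (nn i) b') :=
      fun hm => h (mem_filter.1 hm).2
    rw [if_neg hm]
    exact row_diff hb hb' hp hi h

open Classical in
/-- **The spherical pair inequality.** -/
theorem pair_ineq (hL : Lab k r nn) (hb : BlueS k r e b) (hb' : BlueS k r e b')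
    (hp : PairS k r e b b') :
    ((II k).filter fun f => PhiS k r nn e f b = PhiS k r nn e f b').card ≤
      (((range (2 * k + 1)) ×ˢ (range (2 * k + 1))).filter
        fun q => q.1 < q.2 ∧ Good4 b b' (r q.1) (r q.2)).card := by
  refine le_trans ?_ (disc_le_good hb hb' hp)
  rw [card_filter_II]
  have h1 := var_le (k := k) (c := mk k r b b') (fun s => inj_mk s) betw_mk (sgS nn b b') _
    ((range (2 * k + 1)).filter fun i => (0 < dot (nn i) b ↔ 0 < dot (nn i) b')) (-1) 1 le_rfl
    (by norm_num) (fun i hi => (sgS_spec (mem_filter.1 hi).2).2)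
  have h2 : ((∑ x ∈ range (2 * k + 1),
      ((range (wd k x)).filter fun τ => PhiS k r nn e (x, τ) b = PhiS k r nn e (x, τ) b').card : ℕ) : ℤ)
      ≤ ∑ i ∈ range (2 * k + 1), term k (mk k r b b')
        ((range (2 * k + 1)).filter fun i => (0 < dot (nn i) b ↔ 0 < dot (nn i) b'))
        (sgS nn b b') (-1) 1 i := by
    push_cast
    exact sum_le_sum fun i hi => row_le_term hL hb hb' hp (mem_range.1 hi)
  exact_mod_cast h2.trans h1

end Vale.Agent.P040.Sph56
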