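import Vale.Agent.P040.Sph56.Defs

/-!
# Spherical pair inequality: the keys (rows K1 - K14)
-/

namespace Vale.Agent.P040.Sph56

open Finset Vale.Agent.P040.All Vale.Agent.P040.Rect

variable {k : ℕ} {r : ℕ → V3} {b b' P d : V3}

/-- (K1) `rk_lt_iff`, `key_lt_iff` (cf. `Rect.vk_lt_iff` in Rect/Geo.lean). -/
lemma ck_lt_iff {x y : ℕ} (hx : x < 2 * k + 1) :
    ck k r P d x < ck k r P d y ↔
      ((if 0 < det3 P d (r x) then (0 : ℤ) else 1) < (if 0 < det3 P d (r y) then (0 : ℤ) else 1)) ∨
      ((if 0 < det3 P d (r x) then (0 : ℤ) else 1) = (if 0 < det3 P d (r y) then (0 : ℤ) else 1) ∧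
        (kap P d (r x) < kap P d (r y) ∨ (kap P d (r x) = kap P d (r y) ∧ x < y))) := by
  unfold ck
  rw [rk_lt_iff hx]
  unfold CK
  rw [key_lt_iff]

/-- (K2) `rk_lt_iff`, `key_lt_iff` (cf. `Rect.mk_lt_iff`). -/
lemma mk_lt_iff {s : ℝ} {x y : ℕ} (hx : x < 2 * k + 1) :
    mk k r b b' s x < mk k r b b' s y ↔
      ((if 0 < det3 b b' (r x) then (0 : ℤ) else 1) < (if 0 < det3 b b' (r y) then (0 : ℤ) else 1)) ∨
      ((if 0 < det3 b b' (r x) then (0 : ℤ) else 1) = (if 0 < det3 b b' (r y) then (0 : ℤ) else 1) ∧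
        (mu r b b' s x < mu r b b' s y ∨ (mu r b b' s x = mu r b b' s y ∧ x < y))) := by
  unfold mk
  rw [rk_lt_iff hx]
  unfold MK
  rw [key_lt_iff]

/-- (K3) `rk_inj`, `key_inj`. -/
lemma inj_ck : Inj (2 * k + 1) (ck k r P d) := by
  unfold ck
  exact rk_inj (fun x _ y _ h => key_inj h)

/-- (K4) `rk_inj`, `key_inj`. -/
lemma inj_mk (s : ℝ) : Inj (2 * k + 1) (mk k r b b' s) := by
  unfold mk
  apply rk_inj
  intro x _ y _ h
  exact key_inj h

/-- (K5) copy of `Rect.affine_between` (Rect/Geo.lean). -/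
lemma affine_between (α β s₁ s₂ s₃ : ℝ) (h₁ : s₁ ≤ s₂) (h₂ : s₂ ≤ s₃)
    (h : α * s₁ + β ≤ 0 ↔ α * s₃ + β ≤ 0) : (α * s₁ + β ≤ 0 ↔ α * s₂ + β ≤ 0) := by
  rcases le_total 0 α with ha | ha
  · have e1 : α * s₁ ≤ α * s₂ := mul_le_mul_of_nonneg_left h₁ ha
    have e2 : α * s₂ ≤ α * s₃ := mul_le_mul_of_nonneg_left h₂ ha
    constructor
    · intro h0
      have := h.1 h0
      linarith
    · intro h0
      linarith
  · have e1 : α * s₂ ≤ α * s₁ := mul_le_mul_of_nonpos_left h₁ ha
    have e2 : α * s₃ ≤ α * s₂ := mul_le_mul_of_nonpos_left h₂ ha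
    constructor
    · intro h0
      linarith
    · intro h0
      have : α * s₃ + β ≤ 0 := by linarith
      exact h.2 this

/-- (K6) `mu` is affine in `s` (`unfold mu`; `ring`). -/
lemma mu_affine (s : ℝ) (x : ℕ) :
    mu r b b' s x =
      ((det3 (r x) b' (crs b b') - det3 b (r x) (crs b b')) / (2 * det3 b b' (r x))) * s
      + (det3 (r x) b' (crs b b') + det3 b (r x) (crs b b')) / (2 * det3 b b' (r x)) := by
  unfold mu
  by_cases h : det3 b b' (r x) = 0
  · simp [h]
  · field_simp
    ring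

/-- (K7) for `x < y` the tie-break makes the comparison `mu x ≤ mu y` (from K2; cf.
`Rect.mk_lt_iff_of_lt`). -/
lemma mk_lt_iff_of_lt {s : ℝ} {x y : ℕ} (hxy : x < y) (hy : y < 2 * k + 1) :
    mk k r b b' s x < mk k r b b' s y ↔
      ((if 0 < det3 b b' (r x) then (0 : ℤ) else 1) < (if 0 < det3 b b' (r y) then (0 : ℤ) else 1)) ∨
      ((if 0 < det3 b b' (r x) then (0 : ℤ) else 1) = (if 0 < det3 b b' (r y) then (0 : ℤ) else 1) ∧
        mu r b b' s x - mu r b b' s y ≤ 0) := by
  rw [mk_lt_iff (by omega)]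
  constructor
  · rintro (h | ⟨h1, h2⟩)
    · exact Or.inl h
    · refine Or.inr ⟨h1, ?_⟩
      rcases h2 with h2 | ⟨h2, _⟩ <;> linarith
  · rintro (h | ⟨h1, h2⟩)
    · exact Or.inl h
    · refine Or.inr ⟨h1, ?_⟩
      rcases lt_or_eq_of_le (sub_nonpos.1 h2) with h3 | h3
      · exact Or.inl h3
      · exact Or.inr ⟨h3, hxy⟩

/-- (K8) every pair is reordered at most once: K7, K6, K5 (cf. `Rect.betw_mk`). -/
lemma betw_mk : Betw (2 * k + 1) (mk k r b b') := by
  intro s₁ s₂ s₃ h₁ h₂ x y hxy hy h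
  rw [mk_lt_iff_of_lt hxy hy, mk_lt_iff_of_lt hxy hy] at h
  rw [mk_lt_iff_of_lt hxy hy, mk_lt_iff_of_lt hxy hy]
  have e : ∀ s : ℝ, mu r b b' s x - mu r b b' s y =
      ((det3 (r x) b' (crs b b') - det3 b (r x) (crs b b')) / (2 * det3 b b' (r x)) -
        (det3 (r y) b' (crs b b') - det3 b (r y) (crs b b')) / (2 * det3 b b' (r y))) * s +
      ((det3 (r x) b' (crs b b') + det3 b (r x) (crs b b')) / (2 * det3 b b' (r x)) -
        (det3 (r y) b' (crs b b') + det3 b (r y) (crs b b')) / (2 * det3 b b' (r y))) := by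
    intro s
    rw [mu_affine, mu_affine]
    ring
  rw [e, e] at h
  rw [e, e]
  by_cases hA : ((if 0 < det3 b b' (r x) then (0 : ℤ) else 1) <
      (if 0 < det3 b b' (r y) then (0 : ℤ) else 1))
  · simp only [hA, true_or]
  · by_cases hB : ((if 0 < det3 b b' (r x) then (0 : ℤ) else 1) =
        (if 0 < det3 b b' (r y) then (0 : ℤ) else 1))
    · simp only [hB, lt_irrefl, false_or, true_and] at h ⊢
      exact affine_between _ _ s₁ s₂ s₃ h₁ h₂ h
    · simp only [hA, hB, false_or, false_and]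

/-- (K9) `unfold mu Pt det3 crs dot; field_simp; ring`. -/
lemma mu_sub (s : ℝ) {x y : ℕ} (hx : det3 b b' (r x) ≠ 0) (hy : det3 b b' (r y) ≠ 0) :
    mu r b b' s x - mu r b b' s y =
      dot (crs b b') (crs b b') * det3 (Pt b b' s) (r x) (r y) /
        (det3 b b' (r x) * det3 b b' (r y)) := by
  unfold mu
  rw [div_sub_div _ _ hx hy, div_left_inj' (mul_ne_zero hx hy)]
  unfold Pt det3 crs dot
  ring

/-- (K10) `unfold kap det3 crs dot; field_simp; ring`. -/
lemma kap_sub {X Y : V3} (hx : det3 P d X ≠ 0) (hy : det3 P d Y ≠ 0) :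
    kap P d X - kap P d Y =
      dot (crs P d) (crs P d) * det3 P X Y / (det3 P d X * det3 P d Y) := by
  unfold kap
  rw [div_sub_div _ _ hx hy]
  congr 1
  unfold det3 crs dot
  ring

/-- (K11) `dot n n` is a sum of squares; if it vanished, `crs P d = 0` and `det3 P d X = dot (crs P d) X = 0`. -/
lemma dot_crs_pos {X : V3} (hx : det3 P d X ≠ 0) : 0 < dot (crs P d) (crs P d) := by
  have h0 : 0 ≤ dot (crs P d) (crs P d) := by
    unfold dot
    nlinarith [mul_self_nonneg (crs P d).1, mul_self_nonneg (crs P d).2.1,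
      mul_self_nonneg (crs P d).2.2]
  rcases h0.lt_or_eq with h | h
  · exact h
  · exfalso
    apply hx
    have e : det3 P d X = dot (crs P d) X := by
      unfold det3 dot crs
      ring
    have h1 : (crs P d).1 = 0 := by
      unfold dot at h
      nlinarith [mul_self_nonneg (crs P d).1, mul_self_nonneg (crs P d).2.1,
        mul_self_nonneg (crs P d).2.2]
    have h2 : (crs P d).2.1 = 0 := by
      unfold dot at h
      nlinarith [mul_self_nonneg (crs P d).1, mul_self_nonneg (crs P d).2.1,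
        mul_self_nonneg (crs P d).2.2]
    have h3 : (crs P d).2.2 = 0 := by
      unfold dot at h
      nlinarith [mul_self_nonneg (crs P d).1, mul_self_nonneg (crs P d).2.1,
        mul_self_nonneg (crs P d).2.2]
    rw [e]
    unfold dot
    rw [h1, h2, h3]
    ring

/-- (K12) **order of `ck`** in terms of signs only.  K1, K10, K11; no ties because `det3 P (r x) (r y) ≠ 0`. -/
lemma ck_lt_iff_sign (hd : ∀ x < 2 * k + 1, det3 P d (r x) ≠ 0) {x y : ℕ} (hx : x < 2 * k + 1)
    (hy : y < 2 * k + 1) (hxy : det3 P (r x) (r y) ≠ 0) :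
    ck k r P d x < ck k r P d y ↔
      (0 < det3 P d (r x) ∧ det3 P d (r y) < 0) ∨
      (0 < det3 P d (r x) * det3 P d (r y) ∧ det3 P (r x) (r y) < 0) := by
  have hX := hd x hx
  have hY := hd y hy
  have hn : 0 < dot (crs P d) (crs P d) := dot_crs_pos hX
  have hsub := kap_sub (P := P) (d := d) hX hY
  rw [ck_lt_iff hx]
  -- sign of the difference of the real keys
  have key1 : 0 < det3 P d (r x) * det3 P d (r y) →
      ((kap P d (r x) < kap P d (r y) ∨ (kap P d (r x) = kap P d (r y) ∧ x < y)) ↔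
        det3 P (r x) (r y) < 0) := by
    intro hpos
    constructor
    · rintro (h | ⟨h, _⟩)
      · have h' : kap P d (r x) - kap P d (r y) < 0 := by linarith
        rw [hsub, div_lt_iff₀ hpos, zero_mul] at h'
        by_contra hc
        have : 0 ≤ det3 P (r x) (r y) := not_lt.mp hc
        nlinarith [mul_nonneg hn.le this]
      · exfalso
        have h' : kap P d (r x) - kap P d (r y) = 0 := by linarith
        rw [hsub, div_eq_zero_iff] at h'
        rcases h' with h' | h'
        · rcases mul_eq_zero.mp h' with h'' | h''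
          · exact hn.ne' h''
          · exact hxy h''
        · exact hpos.ne' h'
    · intro h
      left
      have h' : kap P d (r x) - kap P d (r y) < 0 := by
        rw [hsub, div_lt_iff₀ hpos, zero_mul]
        exact mul_neg_of_pos_of_neg hn h
      linarith
  rcases lt_or_gt_of_ne hX with h1 | h1 <;> rcases lt_or_gt_of_ne hY with h2 | h2
  · have hp : 0 < det3 P d (r x) * det3 P d (r y) := mul_pos_of_neg_of_neg h1 h2
    rw [if_neg (not_lt.mpr h1.le), if_neg (not_lt.mpr h2.le)]
    simp only [lt_self_iff_false, true_and, false_or, key1 hp, hp]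
    constructor
    · intro h; exact Or.inr h
    · rintro (⟨h, _⟩ | h)
      · exact absurd h (not_lt.mpr h1.le)
      · exact h
  · have hp : ¬ 0 < det3 P d (r x) * det3 P d (r y) :=
      not_lt.mpr (mul_neg_of_neg_of_pos h1 h2).le
    rw [if_neg (not_lt.mpr h1.le), if_pos h2]
    constructor
    · rintro (h | ⟨h, _⟩)
      · exact absurd h (by norm_num)
      · exact absurd h (by norm_num)
    · rintro (⟨h, _⟩ | ⟨h, _⟩)
      · exact absurd h (not_lt.mpr h1.le)
      · exact absurd h hp
  · rw [if_pos h1, if_neg (not_lt.mpr h2.le)]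
    constructor
    · intro _; exact Or.inl ⟨h1, h2⟩
    · intro _; exact Or.inl (by norm_num)
  · have hp : 0 < det3 P d (r x) * det3 P d (r y) := mul_pos h1 h2
    rw [if_pos h1, if_pos h2]
    simp only [lt_self_iff_false, true_and, false_or, key1 hp, hp]
    constructor
    · intro h; exact Or.inr h
    · rintro (⟨_, h⟩ | h)
      · exact absurd h (not_lt.mpr h2.le)
      · exact h

/-- (K13) at `s = -1` the arrangement is the rotation at `b` cut at `b'`: `mu (-1) x = kap b b' (r x)`
(`unfold mu kap; norm_num`), so the two keys coincide. -/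
lemma mk_neg_one : mk k r b b' (-1) = ck k r b b' := by
  have h : MK r b b' (-1) = CK r b b' := by
    funext x
    unfold MK CK
    have hm : mu r b b' (-1) x = kap b b' (r x) := by
      unfold mu kap
      norm_num
    rw [hm]
  unfold mk ck
  rw [h]

/-- (K14) at `s = 1` the arrangement is the rotation at `-b'` cut at `b`:
`det3 (ng b') b X = det3 b b' X`, `crs (ng b') b = crs b b'`, `det3 (ng b') X n = det3 X b' n`. -/
lemma mk_one : mk k r b b' 1 = ck k r (ng b') b := by
  have h1 : ∀ X : V3, det3 (ng b') b X = det3 b b' X := by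
    intro X; unfold det3 ng; ring
  have h2 : crs (ng b') b = crs b b' := by
    unfold crs ng
    ext <;> simp <;> ring
  have h3 : ∀ X n : V3, det3 (ng b') X n = det3 X b' n := by
    intro X n; unfold det3 ng; ring
  have hK : MK r b b' 1 = CK r (ng b') b := by
    funext x
    unfold MK CK mu kap
    rw [h1, h2, h3]
    norm_num
  unfold mk ck
  rw [hK]

end Vale.Agent.P040.Sph56
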