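import Vale.Agent.P040.Sph56.Keys

/-!
# Spherical pair inequality: change of the reference direction, the two ends (rows R1 - R12)

Notation of the hints: `[u,w] = det3 P u w`, `h1 x = [d1, r x]`, `h2 x = [d2, r x]`.
With `ck_lt_iff_sign`: `ck P d` lists `U_d = {h > 0}` first, then `D_d = {h < 0}`, inside a block `x` comes
before `y` iff `[x,y] < 0`.  If `[d1,d2] > 0` then
`ck P d2 = [D1∩U2][U1∩U2][U1∩D2][D1∩D2]` and `ck P d1 = [U1∩U2][U1∩D2][D1∩D2][D1∩U2]`.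
-/

namespace Vale.Agent.P040.Sph56

open Finset Vale.Agent.P040.All Vale.Agent.P040.Rect

variable {k : ℕ} {r : ℕ → V3} {b b' e P d1 d2 : V3}

/-- (R1) Grassmann-Pluecker (`unfold det3; ring`). -/
lemma gp_identity (P d1 d2 X Y : V3) :
    det3 P d1 d2 * det3 P X Y = det3 P d1 X * det3 P d2 Y - det3 P d2 X * det3 P d1 Y := by
  unfold det3
  ring

/-- (R2) sign consequence of R1 (`nlinarith` / `by_contra` + `mul_nonneg`). -/
lemma gp_neg {X Y : V3} (h : 0 < det3 P d1 d2) (h1 : det3 P d1 X * det3 P d2 Y < 0)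
    (h2 : 0 < det3 P d2 X * det3 P d1 Y) : det3 P X Y < 0 := by
  have hid := gp_identity P d1 d2 X Y
  by_contra hc
  have hc' : 0 ≤ det3 P X Y := not_lt.mp hc
  have := mul_nonneg h.le hc'
  linarith

/-- (R3) `det3 P Y X = - det3 P X Y` (`unfold det3; ring`). -/
lemma det3_swap (P X Y : V3) : det3 P Y X = - det3 P X Y := by
  unfold det3
  ring

/-- hypotheses for the change of reference -/
structure RefH (k : ℕ) (r : ℕ → V3) (P d1 d2 : V3) : Prop where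
  h1 : ∀ x < 2 * k + 1, det3 P d1 (r x) ≠ 0
  h2 : ∀ x < 2 * k + 1, det3 P d2 (r x) ≠ 0
  gp : ∀ x < 2 * k + 1, ∀ y < 2 * k + 1, x ≠ y → det3 P (r x) (r y) ≠ 0
  pos : 0 < det3 P d1 d2

/-- (R4) field `hA`: `x, y ∈ D1∩U2`.  Both orders are `[x,y] < 0` (`ck_lt_iff_sign` twice; the case `x = y` is
trivial: both sides false by `lt_irrefl`). -/
lemma ref_A (h : RefH k r P d1 d2) {x y : ℕ} (hx : x < 2 * k + 1) (hy : y < 2 * k + 1)
    (hAx : det3 P d1 (r x) < 0 ∧ 0 < det3 P d2 (r x))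
    (hAy : det3 P d1 (r y) < 0 ∧ 0 < det3 P d2 (r y)) :
    ck k r P d2 x < ck k r P d2 y ↔ ck k r P d1 x < ck k r P d1 y := by
  rcases eq_or_ne x y with rfl | hne
  · simp only [lt_irrefl]
  · rw [ck_lt_iff_sign h.h2 hx hy (h.gp x hx y hy hne), ck_lt_iff_sign h.h1 hx hy (h.gp x hx y hy hne)]
    have p2 : 0 < det3 P d2 (r x) * det3 P d2 (r y) := mul_pos hAx.2 hAy.2
    have p1 : 0 < det3 P d1 (r x) * det3 P d1 (r y) := mul_pos_of_neg_of_neg hAx.1 hAy.1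
    constructor
    · rintro (⟨_, h3⟩ | ⟨_, h3⟩)
      · exact absurd hAy.2 (not_lt.2 h3.le)
      · exact Or.inr ⟨p1, h3⟩
    · rintro (⟨h3, _⟩ | ⟨_, h3⟩)
      · exact absurd hAx.1 (not_lt.2 h3.le)
      · exact Or.inr ⟨p2, h3⟩

private lemma ref_N_aux (δ D a1x a2x a1y a2y : ℝ) (hδ : 0 < δ)
    (hD : δ * D = a1x * a2y - a2x * a1y) (h1x : a1x ≠ 0) (h2x : a2x ≠ 0) (h1y : a1y ≠ 0)
    (h2y : a2y ≠ 0) (hAx : ¬ (a1x < 0 ∧ 0 < a2x)) (hAy : ¬ (a1y < 0 ∧ 0 < a2y)) :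
    ((0 < a2x ∧ a2y < 0) ∨ (0 < a2x * a2y ∧ D < 0)) ↔
      ((0 < a1x ∧ a1y < 0) ∨ (0 < a1x * a1y ∧ D < 0)) := by
  have key : ∀ t : ℝ, δ * D = t → (t < 0 → D < 0) ∧ (0 < t → 0 < D) := by
    intro t ht
    constructor
    · intro h
      by_contra hc
      have : 0 ≤ δ * D := mul_nonneg hδ.le (not_lt.1 hc)
      linarith
    · intro h
      by_contra hc
      have : δ * D ≤ 0 := mul_nonpos_of_nonneg_of_nonpos hδ.le (not_lt.1 hc)
      linarith
  obtain ⟨kn, kp⟩ := key _ hD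
  rcases lt_or_gt_of_ne h1x with s1 | s1 <;> rcases lt_or_gt_of_ne h2x with s2 | s2 <;>
    rcases lt_or_gt_of_ne h1y with s3 | s3 <;> rcases lt_or_gt_of_ne h2y with s4 | s4
  -- x DD
  · -- y DD
    have p1 : 0 < a2x * a2y := mul_pos_of_neg_of_neg s2 s4
    have p2 : 0 < a1x * a1y := mul_pos_of_neg_of_neg s1 s3
    constructor
    · rintro (⟨h, _⟩ | ⟨_, h⟩)
      · linarith
      · exact Or.inr ⟨p2, h⟩
    · rintro (⟨h, _⟩ | ⟨_, h⟩)
      · linarith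
      · exact Or.inr ⟨p1, h⟩
  · exact absurd ⟨s3, s4⟩ hAy
  · -- y UD : both false
    have q1 : 0 < a1x * a2y := mul_pos_of_neg_of_neg s1 s4
    have q2 : a2x * a1y < 0 := mul_neg_of_neg_of_pos s2 s3
    have hDp : 0 < D := kp (by linarith)
    have q3 : a1x * a1y < 0 := mul_neg_of_neg_of_pos s1 s3
    constructor
    · rintro (⟨h, _⟩ | ⟨_, h⟩) <;> linarith
    · rintro (⟨h, _⟩ | ⟨h, _⟩) <;> linarith
  · -- y UU : both false
    have q3 : a1x * a1y < 0 := mul_neg_of_neg_of_pos s1 s3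
    have q4 : a2x * a2y < 0 := mul_neg_of_neg_of_pos s2 s4
    constructor
    · rintro (⟨h, _⟩ | ⟨h, _⟩) <;> linarith
    · rintro (⟨h, _⟩ | ⟨h, _⟩) <;> linarith
  -- x DU excluded
  · exact absurd ⟨s1, s2⟩ hAx
  · exact absurd ⟨s1, s2⟩ hAx
  · exact absurd ⟨s1, s2⟩ hAx
  · exact absurd ⟨s1, s2⟩ hAx
  -- x UD
  · -- y DD : both true
    have q1 : a1x * a2y < 0 := mul_neg_of_pos_of_neg s1 s4
    have q2 : 0 < a2x * a1y := mul_pos_of_neg_of_neg s2 s3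
    have hDn : D < 0 := kn (by linarith)
    have p1 : 0 < a2x * a2y := mul_pos_of_neg_of_neg s2 s4
    exact ⟨fun _ => Or.inl ⟨s1, s3⟩, fun _ => Or.inr ⟨p1, hDn⟩⟩
  · exact absurd ⟨s3, s4⟩ hAy
  · -- y UD
    have p1 : 0 < a2x * a2y := mul_pos_of_neg_of_neg s2 s4
    have p2 : 0 < a1x * a1y := mul_pos s1 s3
    constructor
    · rintro (⟨h, _⟩ | ⟨_, h⟩)
      · linarith
      · exact Or.inr ⟨p2, h⟩
    · rintro (⟨_, h⟩ | ⟨_, h⟩)
      · linarith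
      · exact Or.inr ⟨p1, h⟩
  · -- y UU : both false
    have q1 : 0 < a1x * a2y := mul_pos s1 s4
    have q2 : a2x * a1y < 0 := mul_neg_of_neg_of_pos s2 s3
    have hDp : 0 < D := kp (by linarith)
    have q4 : a2x * a2y < 0 := mul_neg_of_neg_of_pos s2 s4
    constructor
    · rintro (⟨h, _⟩ | ⟨h, _⟩) <;> linarith
    · rintro (⟨_, h⟩ | ⟨_, h⟩) <;> linarith
  -- x UU
  · -- y DD : both true
    exact ⟨fun _ => Or.inl ⟨s1, s3⟩, fun _ => Or.inl ⟨s2, s4⟩⟩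
  · exact absurd ⟨s3, s4⟩ hAy
  · -- y UD : both true
    have q1 : a1x * a2y < 0 := mul_neg_of_pos_of_neg s1 s4
    have q2 : 0 < a2x * a1y := mul_pos s2 s3
    have hDn : D < 0 := kn (by linarith)
    have p2 : 0 < a1x * a1y := mul_pos s1 s3
    exact ⟨fun _ => Or.inr ⟨p2, hDn⟩, fun _ => Or.inl ⟨s2, s4⟩⟩
  · -- y UU
    have p1 : 0 < a2x * a2y := mul_pos s2 s4
    have p2 : 0 < a1x * a1y := mul_pos s1 s3
    constructor
    · rintro (⟨_, h⟩ | ⟨_, h⟩)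
      · linarith
      · exact Or.inr ⟨p2, h⟩
    · rintro (⟨_, h⟩ | ⟨_, h⟩)
      · linarith
      · exact Or.inr ⟨p1, h⟩

/-- (R5) field `hN`: each of `x`, `y` is in `U1∩U2`, `U1∩D2` or `D1∩D2`; both orders are
`[U1∩U2][U1∩D2][D1∩D2]`.  `ck_lt_iff_sign`; for `x ∈ U1∩U2, y ∈ U1∩D2` and for `x ∈ U1∩D2, y ∈ D1∩D2` use R2 to get
`[x,y] < 0` (and R3 for the opposite order). -/
lemma ref_N (h : RefH k r P d1 d2) {x y : ℕ} (hx : x < 2 * k + 1) (hy : y < 2 * k + 1)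
    (hAx : ¬ (det3 P d1 (r x) < 0 ∧ 0 < det3 P d2 (r x)))
    (hAy : ¬ (det3 P d1 (r y) < 0 ∧ 0 < det3 P d2 (r y))) :
    ck k r P d2 x < ck k r P d2 y ↔ ck k r P d1 x < ck k r P d1 y := by
  by_cases hxy : x = y
  · subst hxy
    simp
  · rw [ck_lt_iff_sign h.h2 hx hy (h.gp x hx y hy hxy), ck_lt_iff_sign h.h1 hx hy (h.gp x hx y hy hxy)]
    refine ref_N_aux (det3 P d1 d2) _ _ _ _ _ h.pos ?_ (h.h1 x hx) (h.h2 x hx) (h.h1 y hy)
      (h.h2 y hy) hAx hAy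
    unfold det3
    ring

/-- (R6) field `hAN`: `x ∈ D1∩U2`, `y` not.  In `ck P d2`: `y ∈ D2` later block; `y ∈ U1∩U2`: `[x,y] < 0` by R2.
In `ck P d1`: `y ∈ U1` earlier block; `y ∈ D1∩D2`: `[y,x] < 0` by R2. -/
lemma ref_AN (h : RefH k r P d1 d2) {x y : ℕ} (hx : x < 2 * k + 1) (hy : y < 2 * k + 1)
    (hAx : det3 P d1 (r x) < 0 ∧ 0 < det3 P d2 (r x))
    (hAy : ¬ (det3 P d1 (r y) < 0 ∧ 0 < det3 P d2 (r y))) :
    ck k r P d2 x < ck k r P d2 y ∧ ck k r P d1 y < ck k r P d1 x := by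
  have hxy : x ≠ y := by
    rintro rfl
    exact hAy hAx
  have g1 := h.gp x hx y hy hxy
  have g2 := h.gp y hy x hx (Ne.symm hxy)
  have a1 := h.h1 y hy
  have a2 := h.h2 y hy
  obtain ⟨x1, x2⟩ := hAx
  rw [ck_lt_iff_sign h.h2 hx hy g1, ck_lt_iff_sign h.h1 hy hx g2]
  rcases lt_or_gt_of_ne a1 with y1 | y1
  · -- y in D1, hence in D2
    have y2 : det3 P d2 (r y) < 0 := by
      rcases lt_or_gt_of_ne a2 with y2 | y2
      · exact y2
      · exact absurd ⟨y1, y2⟩ hAy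
    refine ⟨Or.inl ⟨x2, y2⟩, Or.inr ⟨mul_pos_of_neg_of_neg y1 x1, ?_⟩⟩
    -- [y,x] < 0 : gp_neg with X = y, Y = x : d1 y * d2 x < 0, 0 < d2 y * d1 x
    exact gp_neg h.pos (mul_neg_of_neg_of_pos y1 x2) (mul_pos_of_neg_of_neg y2 x1)
  · -- y in U1
    refine ⟨?_, Or.inl ⟨y1, x1⟩⟩
    rcases lt_or_gt_of_ne a2 with y2 | y2
    · exact Or.inl ⟨x2, y2⟩
    · refine Or.inr ⟨mul_pos x2 y2, ?_⟩
      -- [x,y] < 0 : d1 x * d2 y < 0, 0 < d2 x * d1 y
      exact gp_neg h.pos (mul_neg_of_neg_of_pos x1 y2) (mul_pos x2 y1)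

/-- the rotation cut at `d1` is a cyclic shift of the rotation cut at `d2` -/
lemma ref_rot (h : RefH k r P d1 d2) :
    Rot (2 * k + 1) (ck k r P d2) (ck k r P d1)
      (fun x => det3 P d1 (r x) < 0 ∧ 0 < det3 P d2 (r x)) :=
  ⟨fun _ hx _ hy hAx hAy => ref_A h hx hy hAx hAy,
   fun _ hx _ hy hAx hAy => ref_N h hx hy hAx hAy,
   fun _ hx _ hy hAx hAy => ref_AN h hx hy hAx hAy⟩

/-- (R7) `NN` does not depend on the reference direction: `NN_rot` with `ref_rot`; if `det3 P d1 d2 < 0` exchange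
`d1`, `d2` (`det3 P d2 d1 = - det3 P d1 d2`, R3). -/
lemma NN_ref (h1 : ∀ x < 2 * k + 1, det3 P d1 (r x) ≠ 0) (h2 : ∀ x < 2 * k + 1, det3 P d2 (r x) ≠ 0)
    (gp : ∀ x < 2 * k + 1, ∀ y < 2 * k + 1, x ≠ y → det3 P (r x) (r y) ≠ 0)
    (hd : det3 P d1 d2 ≠ 0) {i : ℕ} (hi : i < 2 * k + 1) :
    NN k (ck k r P d1) i = NN k (ck k r P d2) i := by
  classical
  rcases lt_or_gt_of_ne hd with hneg | hpos
  · have hpos' : 0 < det3 P d2 d1 := by
      rw [det3_swap]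
      linarith
    exact (NN_rot (ref_rot (⟨h2, h1, gp, hpos'⟩ : RefH k r P d2 d1)) hi).symm
  · exact NN_rot (ref_rot (⟨h1, h2, gp, hpos⟩ : RefH k r P d1 d2)) hi

/-- (R8) the rotation at `-c` is the reverse of the rotation at `c`: `ck_lt_iff_sign` at `ng c` and at `c`
(`det3 (ng c) u w = - det3 c u w`), `neg_lt_neg_iff`, R3; the case `x = y` is trivial. -/
lemma ck_ng_iff {c : V3} (hd : ∀ x < 2 * k + 1, det3 c e (r x) ≠ 0)
    (gp : ∀ x < 2 * k + 1, ∀ y < 2 * k + 1, x ≠ y → det3 c (r x) (r y) ≠ 0)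
    {x y : ℕ} (hx : x < 2 * k + 1) (hy : y < 2 * k + 1) :
    ck k r (ng c) e x < ck k r (ng c) e y ↔ - ck k r c e x < - ck k r c e y := by
  have hng : ∀ u w : V3, det3 (ng c) u w = - det3 c u w := by
    intro u w
    unfold det3 ng
    ring
  have hsw : det3 c (r y) (r x) = - det3 c (r x) (r y) := by
    unfold det3
    ring
  by_cases hxy : x = y
  · subst hxy
    simp
  · have hd' : ∀ x < 2 * k + 1, det3 (ng c) e (r x) ≠ 0 := by
      intro z hz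
      rw [hng]
      exact neg_ne_zero.2 (hd z hz)
    have g1 : det3 (ng c) (r x) (r y) ≠ 0 := by
      rw [hng]
      exact neg_ne_zero.2 (gp x hx y hy hxy)
    have g2 : det3 c (r y) (r x) ≠ 0 := gp y hy x hx (Ne.symm hxy)
    rw [neg_lt_neg_iff, ck_lt_iff_sign hd' hx hy g1, ck_lt_iff_sign hd hy hx g2, hng, hng, hng, hsw]
    constructor
    · rintro (⟨h1, h2⟩ | ⟨h1, h2⟩)
      · left
        constructor <;> linarith
      · right
        constructor <;> nlinarith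
    · rintro (⟨h1, h2⟩ | ⟨h1, h2⟩)
      · left
        constructor <;> linarith
      · right
        constructor <;> nlinarith

/-- (R9) from R8, `NN_congr`, `NN_neg`, `inj_ck`. -/
lemma NN_ng {c : V3} (hd : ∀ x < 2 * k + 1, det3 c e (r x) ≠ 0)
    (gp : ∀ x < 2 * k + 1, ∀ y < 2 * k + 1, x ≠ y → det3 c (r x) (r y) ≠ 0)
    {i : ℕ} (hi : i < 2 * k + 1) :
    NN k (ck k r (ng c) e) i + NN k (ck k r c e) i = 2 * k - i := by
  have h1 : NN k (ck k r (ng c) e) i = NN k (fun y => - ck k r c e y) i :=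
    NN_congr (fun x hx y hy => ck_ng_iff hd gp hx hy) hi
  rw [h1]
  exact NN_neg inj_ck hi

/-- (R10) `det3 X Y c = det3 c X Y` (`unfold det3; ring`). -/
lemma det3_cyc (X Y c : V3) : det3 X Y c = det3 c X Y := by
  unfold det3
  ring

/-- (R11) left end: `mk_neg_one`, `NN_ref` with `P = b`, `d1 = b'`, `d2 = e` (`det3 b b' e = - det3 b e b'`), R10. -/
lemma NN_left (hb : BlueS k r e b) (hp : PairS k r e b b') {i : ℕ} (hi : i < 2 * k + 1) :
    NN k (mk k r b b' (-1)) i = NN k (ck k r b e) i := by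
  rw [mk_neg_one]
  refine NN_ref hp.gp hb.ref ?_ ?_ hi
  · intro x hx y hy hxy
    rw [← det3_cyc]
    exact hb.gp x hx y hy hxy
  · rw [det3_swap]
    exact neg_ne_zero.mpr hp.ref

/-- (R12) right end: `mk_one`, `NN_ref` with `P = ng b'`, `d1 = b`, `d2 = e`
(`det3 (ng b') b X = det3 b b' X`, `det3 (ng b') e X = - det3 b' e X`, `det3 (ng b') X Y = - det3 b' X Y`,
`det3 (ng b') b e = - det3 b e b'`), then R9. -/
lemma NN_right (hb' : BlueS k r e b') (hp : PairS k r e b b') {i : ℕ} (hi : i < 2 * k + 1) :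
    NN k (mk k r b b' 1) i + NN k (ck k r b' e) i = 2 * k - i := by
  have e1 : ∀ X : V3, det3 (ng b') b X = det3 b b' X := by
    intro X
    unfold det3 ng
    ring
  have e2 : ∀ X Y : V3, det3 (ng b') X Y = - det3 b' X Y := by
    intro X Y
    unfold det3 ng
    ring
  have e3 : det3 (ng b') b e = - det3 b e b' := by
    unfold det3 ng
    ring
  have hgp : ∀ x < 2 * k + 1, ∀ y < 2 * k + 1, x ≠ y → det3 b' (r x) (r y) ≠ 0 := by
    intro x hx y hy hxy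
    rw [← det3_cyc]
    exact hb'.gp x hx y hy hxy
  rw [mk_one]
  have h := NN_ref (k := k) (r := r) (P := ng b') (d1 := b) (d2 := e)
    (fun x hx => by rw [e1]; exact hp.gp x hx)
    (fun x hx => by rw [e2]; exact neg_ne_zero.2 (hb'.ref x hx))
    (fun x hx y hy hxy => by rw [e2]; exact neg_ne_zero.2 (hgp x hx y hy hxy))
    (by rw [e3]; exact neg_ne_zero.2 hp.ref) hi
  rw [h]
  exact NN_ng hb'.ref hgp hi

end Vale.Agent.P040.Sph56
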